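import Mathlib

/-!
# P131: a norm-generic operator has a hyperinvariant subspace

Every operator is a norm limit of operators which have, stably under perturbation, an eigenvalue
outside the spectrum of the unperturbed operator.
-/

namespace Vale.Agent.Results.P131.NormGeneric

open scoped InnerProductSpace Topology
open Metric Filter

variable {H : Type*} [NormedAddCommGroup H] [InnerProductSpace ℂ H] [CompleteSpace H]

/-- The operator has a nontrivial closed hyperinvariant subspace. -/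
def HasHyperinvariant (T : H →L[ℂ] H) : Prop :=
  ∃ M : Submodule ℂ H, IsClosed (M : Set H) ∧ M ≠ ⊥ ∧ M ≠ ⊤ ∧
    ∀ A : H →L[ℂ] H, A * T = T * A → ∀ x ∈ M, A x ∈ M

theorem hasHyperinvariant_of_eigen {T : H →L[ℂ] H} (hT : ∀ c : ℂ, T ≠ c • 1) {v : H} {z : ℂ}
    (hv : v ≠ 0) (h : T v = z • v) : HasHyperinvariant T := by
  refine ⟨LinearMap.ker (T - z • 1 : H →L[ℂ] H).toLinearMap,
    ContinuousLinearMap.isClosed_ker _, ?_, ?_, ?_⟩
  · refine (Submodule.ne_bot_iff _).2 ⟨v, ?_, hv⟩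
    simp [LinearMap.mem_ker, h]
  · intro htop
    refine hT z (ContinuousLinearMap.ext fun y => ?_)
    have hy : y ∈ LinearMap.ker (T - z • 1 : H →L[ℂ] H).toLinearMap := htop ▸ trivial
    simpa [LinearMap.mem_ker, sub_eq_zero] using hy
  · intro A hA y hy
    have hTy : T y = z • y := by simpa [LinearMap.mem_ker, sub_eq_zero] using hy
    have : A (T y) = T (A y) := by simpa using congrArg (fun B : H →L[ℂ] H => B y) hA
    rw [hTy, map_smul] at this
    simp [LinearMap.mem_ker, sub_eq_zero, ← this]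

theorem isOpen_nonscalar : IsOpen {T : H →L[ℂ] H | ∀ c : ℂ, T ≠ c • 1} := by
  have h : {T : H →L[ℂ] H | ∀ c : ℂ, T ≠ c • 1}
      = (Submodule.span ℂ {(1 : H →L[ℂ] H)} : Set (H →L[ℂ] H))ᶜ := by
    ext T
    simp [Submodule.mem_span_singleton, eq_comm]
  rw [h]
  exact (Submodule.closed_of_finiteDimensional _).isOpen_compl

/-- Points of the spectrum of largest modulus are approximate eigenvalues. -/
theorem approx_eigen [Nontrivial H] (T : H →L[ℂ] H) {l : ℂ} (hl : l ∈ spectrum ℂ T)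
    (hmax : ∀ z ∈ spectrum ℂ T, ‖z‖ ≤ ‖l‖) {η : ℝ} (hη : 0 < η) :
    ∃ x : H, ‖x‖ = 1 ∧ ‖T x - l • x‖ < η := by
  by_contra! hcon
  have hbd : ∀ y : H, η * ‖y‖ ≤ ‖T y - l • y‖ := fun y => by
    rcases eq_or_ne y 0 with rfl | hy
    · simp
    have hy' : ‖y‖ ≠ 0 := norm_ne_zero_iff.2 hy
    have h1 := hcon ((‖y‖⁻¹ : ℂ) • y) (by simp [norm_smul, hy'])
    rw [map_smul, smul_comm, ← smul_sub, norm_smul] at h1
    simp only [norm_inv, Complex.norm_real, norm_norm] at h1
    rw [inv_mul_eq_div, le_div_iff₀ (norm_pos_iff.2 hy)] at h1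
    exact h1
  obtain ⟨u, hu, hlu⟩ : ∃ u : ℂ, ‖u‖ = 1 ∧ ∀ s : ℝ, 0 < s → ‖l‖ < ‖l + s * u‖ := by
    rcases eq_or_ne l 0 with rfl | hl0
    · exact ⟨1, by simp, fun s hs => by simp [abs_of_pos hs, hs]⟩
    refine ⟨l / ‖l‖, by simp [hl0], fun s hs => ?_⟩
    have hpos : 0 < ‖l‖ := norm_pos_iff.2 hl0
    rw [show l + s * (l / ‖l‖) = l * ((1 + s / ‖l‖ : ℝ) : ℂ) by push_cast; ring, norm_mul,
      Complex.norm_real, Real.norm_of_nonneg (by positivity)]
    exact lt_mul_of_one_lt_right hpos (by simpa using div_pos hs hpos)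
  set z : ℂ := l + ((η / 4 : ℝ) : ℂ) * u with hz
  have hz' : ‖z - l‖ = η / 4 := by
    rw [hz, add_sub_cancel_left, norm_mul, hu, Complex.norm_real,
      Real.norm_of_nonneg (by linarith), mul_one]
  have hunit : IsUnit (algebraMap ℂ (H →L[ℂ] H) z - T) := by
    by_contra hns
    exact absurd (hmax z hns) (not_le.2 (hlu _ (by linarith)))
  refine hl ?_
  obtain ⟨a, ha⟩ := hunit
  have hinv : ‖((a⁻¹ : (H →L[ℂ] H)ˣ) : H →L[ℂ] H)‖ ≤ 2 / η := by
    refine ContinuousLinearMap.opNorm_le_bound _ (by positivity) fun y => ?_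
    set w := ((a⁻¹ : (H →L[ℂ] H)ˣ) : H →L[ℂ] H) y
    have hw : z • w - T w = y := by
      have := congrArg (fun B : H →L[ℂ] H => B y) a.mul_inv
      simpa [ha, Algebra.algebraMap_eq_smul_one, w] using this
    have h1 := hbd w
    have h2 : ‖T w - l • w‖ ≤ ‖y‖ + η / 4 * ‖w‖ := by
      calc ‖T w - l • w‖ = ‖(z - l) • w - y‖ := by rw [← hw, sub_smul]; congr 1; abel
        _ ≤ _ := (norm_sub_le _ _).trans (by rw [norm_smul, hz', add_comm])
    rw [div_mul_eq_mul_div, le_div_iff₀ hη]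
    nlinarith [norm_nonneg w]
  have hlt : ‖algebraMap ℂ (H →L[ℂ] H) (l - z)‖ < ‖((a⁻¹ : (H →L[ℂ] H)ˣ) : H →L[ℂ] H)‖⁻¹ := by
    rw [norm_algebraMap', norm_sub_rev, hz']
    refine lt_of_lt_of_le ?_ (inv_anti₀ (Units.norm_pos _) hinv)
    rw [inv_div]
    linarith
  have hsum : algebraMap ℂ (H →L[ℂ] H) l - T
      = ((a.add (algebraMap ℂ (H →L[ℂ] H) (l - z)) hlt : (H →L[ℂ] H)ˣ) : H →L[ℂ] H) := by
    rw [Units.val_add, ha, map_sub]
    abel
  change IsUnit _
  rw [hsum]
  exact Units.isUnit _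

/-- A norm-generic operator has a nontrivial closed hyperinvariant subspace. -/
theorem result :
    ∀ (H : Type) [NormedAddCommGroup H] [InnerProductSpace ℂ H] [CompleteSpace H],
      (∃ x y : H, LinearIndependent ℂ ![x, y]) →
      ∃ U : Set (H →L[ℂ] H), IsOpen U ∧ Dense U ∧ ∀ T ∈ U, HasHyperinvariant T := by
  intro H _ _ _ ⟨p, q, hpq⟩
  have : Nontrivial H := ⟨⟨p, 0, hpq.ne_zero 0⟩⟩
  refine ⟨interior {T | HasHyperinvariant T}, isOpen_interior, Metric.dense_iff.2 ?_,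
    fun T hT => (interior_subset hT : T ∈ {T : H →L[ℂ] H | HasHyperinvariant T})⟩
  intro T ε hε
  obtain ⟨l, hl, hlr⟩ := spectrum.exists_nnnorm_eq_spectralRadius T
  have hmax : ∀ z ∈ spectrum ℂ T, ‖z‖ ≤ ‖l‖ := fun z hz => by
    have h : (‖z‖₊ : ENNReal) ≤ spectralRadius ℂ T :=
      le_iSup₂ (f := fun k _ => (‖k‖₊ : ENNReal)) z hz
    rw [← hlr] at h
    exact_mod_cast h
  -- a nearby point outside the spectrum
  obtain ⟨z, hzl, hzn⟩ : ∃ z : ℂ, ‖z - l‖ ≤ ε / 4 ∧ ‖l‖ < ‖z‖ := by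
    rcases eq_or_ne l 0 with rfl | hl0
    · exact ⟨(ε / 4 : ℝ), by simp [Complex.norm_real, abs_of_pos hε],
        by simp [Complex.norm_real, abs_of_pos hε, hε]⟩
    have hpos : 0 < ‖l‖ := norm_pos_iff.2 hl0
    refine ⟨l * ((1 + ε / 4 / ‖l‖ : ℝ) : ℂ), le_of_eq ?_, ?_⟩
    · rw [show l * ((1 + ε / 4 / ‖l‖ : ℝ) : ℂ) - l = l * ((ε / 4 / ‖l‖ : ℝ) : ℂ) by
        push_cast; ring, norm_mul, Complex.norm_real, Real.norm_of_nonneg (by positivity)]
      field_simp
    · rw [norm_mul, Complex.norm_real, Real.norm_of_nonneg (by positivity)]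
      exact lt_mul_of_one_lt_right hpos (by simpa using by positivity)
  have hunit : IsUnit (algebraMap ℂ (H →L[ℂ] H) z - T) := by
    by_contra hns
    exact absurd (hmax z hns) (not_le.2 hzn)
  obtain ⟨a, ha⟩ := hunit
  set R : H →L[ℂ] H := ((a⁻¹ : (H →L[ℂ] H)ˣ) : H →L[ℂ] H) with hR
  have hR1 : ∀ y, z • R y - T (R y) = y := fun y => by
    have := congrArg (fun B : H →L[ℂ] H => B y) a.mul_inv
    simpa [ha, Algebra.algebraMap_eq_smul_one, hR] using this
  have hR2 : ∀ y, R (z • y - T y) = y := fun y => by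
    have := congrArg (fun B : H →L[ℂ] H => B y) a.inv_mul
    simpa [ha, Algebra.algebraMap_eq_smul_one, hR] using this
  obtain ⟨x, hx, hxl⟩ := approx_eigen T hl hmax (η := min (ε / 4) (1 / (‖R‖ + 1))) (by positivity)
  have hxx : ⟪x, x⟫_ℂ = 1 := by simp [hx]
  set β : ℂ := ⟪x, R x⟫_ℂ with hβ
  have hβ0 : β ≠ 0 := fun h0 => by
    have h1 : R ((z - l) • x - (T x - l • x)) = x := by
      rw [show (z - l) • x - (T x - l • x) = z • x - T x by rw [sub_smul]; abel]
      exact hR2 x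
    have h2 := congrArg (fun y => ⟪x, y⟫_ℂ) h1
    simp only [map_sub R ((z - l) • x), map_smul, inner_sub_right, inner_smul_right, ← hβ, h0,
      mul_zero, zero_sub, hxx] at h2
    have h3 : (1 : ℝ) ≤ ‖R (T x - l • x)‖ := by
      have h4 := congrArg norm h2
      rw [norm_neg, norm_one] at h4
      rw [← h4]
      simpa [hx] using norm_inner_le_norm (𝕜 := ℂ) x (R (T x - l • x))
    have h5 := h3.trans (R.le_opNorm _)
    have h6 : ‖T x - l • x‖ < 1 / (‖R‖ + 1) := hxl.trans_le (min_le_right _ _)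
    rw [lt_div_iff₀ (by positivity)] at h6
    nlinarith [norm_nonneg (T x - l • x)]
  set S : H →L[ℂ] H := T + (innerSL ℂ x).smulRight (z • x - T x) with hS
  have hSx : S x = z • x := by simp [hS, hx]
  refine ⟨S, ?_, ?_⟩
  · rw [Metric.mem_ball, dist_eq_norm, hS, add_sub_cancel_left,
      ContinuousLinearMap.norm_smulRight_apply, innerSL_apply_norm, hx, one_mul]
    calc ‖z • x - T x‖ = ‖(z - l) • x - (T x - l • x)‖ := by rw [sub_smul]; congr 1; abel
      _ ≤ ‖z - l‖ + ‖T x - l • x‖ := by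
        refine (norm_sub_le _ _).trans ?_
        rw [norm_smul, hx, mul_one]
      _ < ε := by linarith [hxl.trans_le (min_le_left _ _)]
  have hSne : ∀ c : ℂ, S ≠ c • 1 := fun c hc => by
    have hcz : c = z := by
      have h := congrArg (fun B : H →L[ℂ] H => B x) hc
      simp only [hSx, ContinuousLinearMap.smul_apply, one_apply] at h
      exact (smul_left_injective ℂ (fun e : x = 0 => by simp [e] at hx) h).symm
    subst hcz
    have hall : ∀ y, y = ⟪x, y⟫_ℂ • x := fun y => by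
      have h := congrArg (fun B : H →L[ℂ] H => B y) hc
      simp [hS] at h
      conv_lhs => rw [← hR2 y, ← h, add_sub_cancel_left, map_smul, hR2 x]
    have hd := LinearIndependent.pair_iff.1 hpq ⟪x, q⟫_ℂ (-⟪x, p⟫_ℂ) (by
      conv_lhs => rw [hall p, hall q]
      simp [inner_smul_right, hx, smul_smul, mul_comm])
    exact hpq.ne_zero 0 (by simpa [neg_eq_zero.1 hd.2] using hall p)
  -- eigenvalues persist near `S`
  let Φ : (H →L[ℂ] H) × H × ℂ → (H →L[ℂ] H) × H × ℂ :=
    fun t => (t.1, t.1 t.2.1 - t.2.2 • t.2.1, innerSL ℂ x t.2.1)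
  let P1 := ContinuousLinearMap.fst ℂ (H →L[ℂ] H) (H × ℂ)
  let P2 := (ContinuousLinearMap.fst ℂ H ℂ).comp (ContinuousLinearMap.snd ℂ (H →L[ℂ] H) (H × ℂ))
  let P3 := (ContinuousLinearMap.snd ℂ H ℂ).comp (ContinuousLinearMap.snd ℂ (H →L[ℂ] H) (H × ℂ))
  have hd := P1.hasStrictFDerivAt (x := (S, x, z)) |>.prodMk
    (((P1.hasStrictFDerivAt.clm_apply P2.hasStrictFDerivAt).sub
      (P3.hasStrictFDerivAt.smul P2.hasStrictFDerivAt)).prodMk
      ((innerSL ℂ x).hasStrictFDerivAt.comp (S, x, z) P2.hasStrictFDerivAt))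
  have hmap := hd.map_nhds_eq_of_surj (LinearMap.range_eq_top.2 ?_)
  · have hev : ∀ᶠ S' in 𝓝 S, HasHyperinvariant S' := by
      have hmem := hmap ▸ Filter.image_mem_map
        (m := Φ) (Filter.univ_mem : (Set.univ : Set _) ∈ 𝓝 (S, x, z))
      have hpre : ∀ᶠ S' in 𝓝 S, (S', (0 : H), (1 : ℂ)) ∈ Φ '' Set.univ := by
        have hct : Continuous fun S' : H →L[ℂ] H => (S', (0 : H), (1 : ℂ)) := by fun_prop
        exact hct.continuousAt.preimage_mem_nhds (by
          simpa [Φ, P1, P2, P3, hSx, hx] using hmem)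
      filter_upwards [hpre, isOpen_nonscalar.mem_nhds hSne] with S' hp hns
      obtain ⟨⟨S'', v, w⟩, -, h⟩ := hp
      simp only [Φ, Prod.mk.injEq, innerSL_apply_apply] at h
      obtain ⟨rfl, h1, h2⟩ := h
      exact hasHyperinvariant_of_eigen hns (fun e : v = 0 => by simp [e] at h2) (sub_eq_zero.1 h1)
    exact mem_interior_iff_mem_nhds.2 hev
  · rintro ⟨A, b, c⟩
    set ζ : ℂ := -(⟪x, R (b - A x)⟫_ℂ / β) with hζ
    set y : H := R (b - A x + ζ • x) with hy
    have hxy : ⟪x, y⟫_ℂ = 0 := by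
      rw [hy, map_add, map_smul, inner_add_right, inner_smul_right, ← hβ, hζ, neg_mul,
        div_mul_cancel₀ _ hβ0, add_neg_cancel]
    have h := hR1 (b - A x + ζ • x)
    rw [← hy] at h
    refine ⟨(A, c • x - y, ζ), ?_⟩
    simp only [ContinuousLinearMap.coe_coe, ContinuousLinearMap.prod_apply, P1, P2, P3,
      ContinuousLinearMap.sub_apply, ContinuousLinearMap.add_apply,
      ContinuousLinearMap.comp_apply, ContinuousLinearMap.smul_apply,
      ContinuousLinearMap.smulRight_apply, ContinuousLinearMap.flip_apply,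
      ContinuousLinearMap.coe_fst', ContinuousLinearMap.coe_snd', innerSL_apply_apply,
      inner_sub_right, inner_smul_right, hxx, hxy]
    refine Prod.ext rfl (Prod.ext ?_ ?_)
    · simp only [hS, map_sub, map_smul, ContinuousLinearMap.add_apply,
        ContinuousLinearMap.smulRight_apply, innerSL_apply_apply, hxx, hxy, one_smul, zero_smul]
      linear_combination (norm := module) h
    · simp

end Vale.Agent.Results.P131.NormGeneric
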