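import Vale.Agent.P131.Compose
import Vale.Agent.P131.Compact
import Vale.Agent.P131.Cube
import Vale.Agent.P131.Sym
import Vale.Agent.P131.Rank
import Vale.Agent.P131.Transfer
import Vale.Agent.P131.Rigid
import Vale.Agent.P131.Model
import Vale.Agent.P131.Space

namespace Vale.Agent.Results.P131.TransitiveCommutant

theorem result :
    ∃ (H : Type) (_ : NormedAddCommGroup H) (_ : InnerProductSpace ℂ H) (_ : CompleteSpace H),
      TopologicalSpace.SeparableSpace H ∧ ¬ FiniteDimensional ℂ H ∧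
      ∃ T : H →L[ℂ] H, (∀ z : ℂ, T ≠ z • ContinuousLinearMap.id ℂ H) ∧
        ∀ M : Submodule ℂ H, IsClosed (M : Set H) →
          (∀ A : H →L[ℂ] H, A.comp T = T.comp A → ∀ x ∈ M, A x ∈ M) → M = ⊥ ∨ M = ⊤ := by
  refine ⟨Vale.Agent.P131.Ell2, inferInstance, inferInstance, inferInstance,
    Vale.Agent.P131.separableSpace_ell2, Vale.Agent.P131.not_finiteDimensional_ell2, ?_⟩
  obtain ⟨T, h1, h2⟩ := Vale.Agent.P131.transitive_of_specs
    (Vale.Agent.P131.compactSpec (Vale.Agent.P131.cubeSpec (Vale.Agent.P131.symSpec Vale.Agent.P131.rankSpec)))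
    (Vale.Agent.P131.transferSpec Vale.Agent.P131.gapCohSpec) Vale.Agent.P131.gapCohSpec
    Vale.Agent.P131.rigidSpec Vale.Agent.P131.modelSpec
  exact ⟨T, fun z hz => h1 ⟨z, hz⟩, h2⟩

end Vale.Agent.Results.P131.TransitiveCommutant
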